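import Crest.Agent.R096.Str1_696
import Crest.Agent.R096.P5Spec_205
import Crest.Agent.R096.Mo7_119

-- ▼ part X212/Smo49/App
section

/-!
Row 212, layer T, package SMO (helper49), part 1: `C¹`-approximation of smooth maps by piecewise
affine ones (difference of two maxima of tangent planes; no triangulation).
-/

set_option autoImplicit false
set_option linter.style.longLine false

open Set Metric Filter Topology
open scoped NNReal ContDiff

namespace Crest.Agent.X212.Smo49

open Crest.Agent.R096.Str_696 (LocPL)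

section sel

variable {E F : Type*} [NormedAddCommGroup E] [NormedSpace ℝ E] [NormedAddCommGroup F]
  [NormedSpace ℝ F]

/-- a continuous selection of finitely many affine maps -/
def Sel (g : E → F) : Prop :=
  Continuous g ∧ ∃ S : Finset (E →ᵃ[ℝ] F), ∀ y, ∃ a ∈ S, g y = a y

theorem Sel.locPL {g : E → F} (hg : Sel g) (Ω : Set E) : LocPL g Ω := by
  obtain ⟨hc, S, hS⟩ := hg
  exact fun x _ => ⟨1, one_pos, S, hc.continuousOn, fun y _ => hS y⟩

theorem Sel.zero : Sel (fun _ : E => (0 : F)) :=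
  ⟨continuous_const, {0}, fun _ => ⟨0, Finset.mem_singleton_self _, rfl⟩⟩

theorem Sel.add {f g : E → F} (hf : Sel f) (hg : Sel g) : Sel (fun x => f x + g x) := by
  classical
  obtain ⟨fc, S, hS⟩ := hf
  obtain ⟨gc, T, hT⟩ := hg
  refine ⟨fc.add gc, (S ×ˢ T).image fun p => p.1 + p.2, fun y => ?_⟩
  obtain ⟨a, ha, hay⟩ := hS y
  obtain ⟨b, hb, hby⟩ := hT y
  exact ⟨a + b, Finset.mem_image.2 ⟨(a, b), Finset.mem_product.2 ⟨ha, hb⟩, rfl⟩, by
    simp [hay, hby]⟩

theorem Sel.clm {G : Type*} [NormedAddCommGroup G] [NormedSpace ℝ G] {f : E → F} (hf : Sel f)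
    (A : F →L[ℝ] G) : Sel (fun x => A (f x)) := by
  classical
  obtain ⟨fc, S, hS⟩ := hf
  refine ⟨A.continuous.comp fc, S.image fun a => (A : F →ₗ[ℝ] G).toAffineMap.comp a, fun y => ?_⟩
  obtain ⟨a, ha, hay⟩ := hS y
  exact ⟨_, Finset.mem_image.2 ⟨a, ha, rfl⟩, by simp [hay]⟩

theorem Sel.sub {f g : E → F} (hf : Sel f) (hg : Sel g) : Sel (fun x => f x - g x) := by
  have h := hf.add (hg.clm (-ContinuousLinearMap.id ℝ F))
  simpa [sub_eq_add_neg] using h

theorem Sel.sum {ι : Type*} (s : Finset ι) {f : ι → E → F} (hf : ∀ i ∈ s, Sel (f i)) :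
    Sel (fun x => ∑ i ∈ s, f i x) := by
  classical
  induction s using Finset.induction_on with
  | empty => simpa using (Sel.zero : Sel (fun _ : E => (0 : F)))
  | insert a s ha ih =>
    have h := (hf a (Finset.mem_insert_self _ _)).add
      (ih fun i hi => hf i (Finset.mem_insert_of_mem hi))
    simpa [Finset.sum_insert ha] using h

/-- maximum of the tangent planes of a strongly convex function at the points of a fine net -/
theorem exists_sel_up {u : E → ℝ} {D : E → E →L[ℝ] ℝ} {M L : ℝ} (hM : 0 ≤ M) (hL : 0 ≤ L)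
    (hlow : ∀ x p, ‖x - p‖ ^ 2 ≤ u x - u p - D p (x - p))
    (hup : ∀ x p, u x - u p - D p (x - p) ≤ M * ‖x - p‖ ^ 2)
    (hD : ∀ p q, ‖D p - D q‖ ≤ L * ‖p - q‖) {K : Set E} (hK : IsCompact K) {ε : ℝ} (hε : 0 < ε) :
    ∃ g : E → ℝ, Sel g ∧ (∀ x ∈ K, |g x - u x| ≤ ε) ∧
      ∀ x ∈ K, ∀ y ∈ K, |(g x - u x) - (g y - u y)| ≤ ε * ‖x - y‖ := by
  classical
  set c : ℝ := M + 1 with hc
  have hc1 : 1 ≤ c := by linarith
  set B : ℝ := L * c + M + 1 with hB
  have hB1 : 1 ≤ B := by have : 0 ≤ L * c := by positivity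
                         linarith
  set δ : ℝ := min 1 (ε / B) with hδ
  have hδ0 : 0 < δ := lt_min one_pos (by positivity)
  have hδ1 : δ ≤ 1 := min_le_left _ _
  have hδB : B * δ ≤ ε := by
    have : δ ≤ ε / B := min_le_right _ _
    rw [le_div_iff₀ (by linarith)] at this
    linarith
  obtain ⟨T0, -, hT0f, hT0⟩ := hK.finite_cover_balls hδ0
  set T : Finset E := insert 0 hT0f.toFinset with hT
  have hne : T.Nonempty := ⟨0, Finset.mem_insert_self _ _⟩
  set a : E → E →ᵃ[ℝ] ℝ := fun p =>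
    ((D p : E →ₗ[ℝ] ℝ).toAffineMap) + AffineMap.const ℝ E (u p - D p p) with ha
  have haap : ∀ p x, a p x = u p + D p (x - p) := by
    intro p x
    simp only [ha, AffineMap.coe_add, Pi.add_apply, LinearMap.coe_toAffineMap,
      ContinuousLinearMap.coe_coe, AffineMap.const_apply, map_sub]
    ring
  set g : E → ℝ := fun x => T.sup' hne fun p => a p x with hg
  have hact : ∀ x, ∃ p ∈ T, g x = a p x := fun x => Finset.exists_mem_eq_sup' hne _
  have hle : ∀ x, ∀ p ∈ T, a p x ≤ g x := fun x p hp => Finset.le_sup' (fun p => a p x) hp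
  have hgc : Continuous g := by
    have : g = T.sup' hne fun p => fun x => a p x := by
      funext x; simp only [hg, Finset.sup'_apply]
    rw [this]
    refine Continuous.finset_sup' hne fun p _ => ?_
    have : (fun x => a p x) = fun x => u p + D p (x - p) := funext (haap p)
    rw [this]; fun_prop
  have h0 : ∀ x, g x ≤ u x := by
    intro x
    obtain ⟨p, -, hp⟩ := hact x
    have := hlow x p
    rw [hp, haap]
    nlinarith [sq_nonneg ‖x - p‖]
  have h1 : ∀ x ∈ K, u x - g x ≤ M * δ ^ 2 := by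
    intro x hx
    obtain ⟨p, hp, hxp⟩ := mem_iUnion₂.1 (hT0 hx)
    have hpT : p ∈ T := Finset.mem_insert_of_mem (hT0f.mem_toFinset.2 hp)
    have h2 := hle x p hpT
    rw [haap] at h2
    have h3 := hup x p
    rw [mem_ball, dist_eq_norm] at hxp
    have h4 : ‖x - p‖ ^ 2 ≤ δ ^ 2 := by gcongr
    nlinarith
  have hMδ : M * δ ≤ ε := by
    have : M ≤ B := by have : 0 ≤ L * c := by positivity
                       linarith
    nlinarith
  have hone : ∀ x ∈ K, ∀ y ∈ K, (g x - u x) - (g y - u y) ≤ ε * ‖x - y‖ := by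
    intro x hx y hy
    by_cases hxy : ‖x - y‖ ≤ δ
    · obtain ⟨p, hpT, hp⟩ := hact x
      have h2 := hle y p hpT
      have h3 : ‖x - p‖ ≤ c * δ := by
        have h4 := hlow x p
        have h5 := h1 x hx
        rw [hp, haap] at h5
        have h6 : ‖x - p‖ ^ 2 ≤ (c * δ) ^ 2 := by
          have : M ≤ c ^ 2 := by nlinarith
          have h7 : M * δ ^ 2 ≤ c ^ 2 * δ ^ 2 := by gcongr
          rw [mul_pow]; linarith
        exact abs_le_of_sq_le_sq' h6 (by positivity) |>.2
      have h4 := hup y x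
      rw [norm_sub_rev y x] at h4
      have h5 : (D p - D x) (x - y) ≤ L * (c * δ) * ‖x - y‖ := by
        refine (le_abs_self _).trans ?_
        rw [← Real.norm_eq_abs]
        refine ((D p - D x).le_opNorm _).trans ?_
        gcongr
        refine (hD p x).trans ?_
        rw [norm_sub_rev]; gcongr
      rw [hp, haap] at *
      have e1 : D p (x - p) - D p (y - p) = D p (x - y) := by
        rw [← map_sub]; congr 1; abel
      have e2 : D x (y - x) = - D x (x - y) := by rw [← map_neg]; congr 1; abel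
      rw [sub_apply] at h5
      have h6 : M * ‖x - y‖ ^ 2 ≤ M * δ * ‖x - y‖ := by
        rw [sq, ← mul_assoc]; gcongr
      have h7 : (L * (c * δ) + M * δ) * ‖x - y‖ ≤ ε * ‖x - y‖ := by
        gcongr
        have : L * (c * δ) + M * δ = (L * c + M) * δ := by ring
        rw [this]; nlinarith
      nlinarith
    · push Not at hxy
      have h2 := h0 x
      have h3 := h1 y hy
      have h4 : M * δ ^ 2 ≤ ε * ‖x - y‖ := by
        rw [sq, ← mul_assoc]
        exact mul_le_mul hMδ hxy.le hδ0.le hε.le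
      linarith
  refine ⟨g, ⟨hgc, T.image a, fun y => ?_⟩, fun x hx => ?_, fun x hx y hy => ?_⟩
  · obtain ⟨p, hp, h⟩ := hact y
    exact ⟨a p, Finset.mem_image_of_mem _ hp, h⟩
  · have h2 := h0 x
    have h3 := h1 x hx
    have h4 : M * δ ^ 2 ≤ ε := by
      rw [sq, ← mul_assoc]
      have : M * δ * δ ≤ M * δ * 1 := by gcongr
      linarith
    rw [abs_le]; constructor <;> linarith
  · have h2 := hone x hx y hy
    have h3 := hone y hy x hx
    rw [norm_sub_rev] at h3
    rw [abs_le]; constructor <;> linarith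

end sel

section app

variable {E : Type*} [NormedAddCommGroup E] [InnerProductSpace ℝ E]

theorem exists_sel_quad {φ : E → ℝ} (hφ : Differentiable ℝ φ) {L : ℝ} (hL : 0 ≤ L)
    (hD : ∀ p q, ‖fderiv ℝ φ p - fderiv ℝ φ q‖ ≤ L * ‖p - q‖) {K : Set E} (hK : IsCompact K)
    {ε : ℝ} (hε : 0 < ε) :
    ∃ g : E → ℝ, Sel g ∧ (∀ x ∈ K, |g x - (φ x + (L + 1) * ‖x‖ ^ 2)| ≤ ε) ∧
      ∀ x ∈ K, ∀ y ∈ K, |(g x - (φ x + (L + 1) * ‖x‖ ^ 2)) - (g y - (φ y + (L + 1) * ‖y‖ ^ 2))| ≤
        ε * ‖x - y‖ := by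
  have hT : ∀ x p, |φ x - φ p - fderiv ℝ φ p (x - p)| ≤ L * ‖x - p‖ ^ 2 := by
    intro x p
    have h := (convex_closedBall p ‖x - p‖).norm_image_sub_le_of_norm_fderiv_le' (𝕜 := ℝ)
      (f := φ) (φ := fderiv ℝ φ p) (C := L * ‖x - p‖) (fun z _ => hφ z) (fun z hz => by
        refine (hD z p).trans ?_
        rw [mem_closedBall, dist_eq_norm] at hz
        gcongr) (mem_closedBall_self (norm_nonneg _))
      (show x ∈ closedBall p ‖x - p‖ by rw [mem_closedBall, dist_eq_norm])
    rw [Real.norm_eq_abs] at h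
    rw [sq, ← mul_assoc]; exact h
  have hq : ∀ x p : E, ‖x‖ ^ 2 - ‖p‖ ^ 2 - 2 * inner ℝ p (x - p) = ‖x - p‖ ^ 2 := by
    intro x p
    rw [norm_sub_sq_real, inner_sub_right, real_inner_self_eq_norm_sq, real_inner_comm]
    ring
  refine exists_sel_up (u := fun x => φ x + (L + 1) * ‖x‖ ^ 2)
    (D := fun p => fderiv ℝ φ p + (2 * (L + 1)) • innerSL ℝ p) (M := 2 * L + 1)
    (L := L + 2 * (L + 1)) (by linarith) (by linarith) ?_ ?_ ?_ hK hε
  · intro x p
    have h1 := abs_le.1 (hT x p)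
    have h2 := hq x p
    simp only [add_apply, smul_apply, innerSL_apply_apply,
      smul_eq_mul]
    have h3 : (L + 1) * ‖x‖ ^ 2 - (L + 1) * ‖p‖ ^ 2 - 2 * (L + 1) * inner ℝ p (x - p)
        = (L + 1) * ‖x - p‖ ^ 2 := by rw [← h2]; ring
    nlinarith
  · intro x p
    have h1 := abs_le.1 (hT x p)
    have h2 := hq x p
    simp only [add_apply, smul_apply, innerSL_apply_apply,
      smul_eq_mul]
    have h3 : (L + 1) * ‖x‖ ^ 2 - (L + 1) * ‖p‖ ^ 2 - 2 * (L + 1) * inner ℝ p (x - p)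
        = (L + 1) * ‖x - p‖ ^ 2 := by rw [← h2]; ring
    nlinarith
  · intro p q
    have e : fderiv ℝ φ p + (2 * (L + 1)) • innerSL ℝ p - (fderiv ℝ φ q + (2 * (L + 1)) • innerSL ℝ q)
        = (fderiv ℝ φ p - fderiv ℝ φ q) + (2 * (L + 1)) • innerSL ℝ (p - q) := by
      rw [map_sub, smul_sub]; abel
    rw [e]
    refine (norm_add_le _ _).trans ?_
    rw [norm_smul, innerSL_apply_norm, Real.norm_of_nonneg (by linarith), add_mul]
    exact add_le_add (hD p q) le_rfl

/-- scalar case -/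
theorem exists_sel_real [FiniteDimensional ℝ E] {φ : E → ℝ} (hφ : ContDiff ℝ 2 φ)
    (hs : HasCompactSupport φ) {K : Set E} (hK : IsCompact K) {ε : ℝ} (hε : 0 < ε) :
    ∃ g : E → ℝ, Sel g ∧ (∀ x ∈ K, |g x - φ x| ≤ ε) ∧
      ∀ x ∈ K, ∀ y ∈ K, |(g x - φ x) - (g y - φ y)| ≤ ε * ‖x - y‖ := by
  have h1 : ContDiff ℝ 1 (fderiv ℝ φ) := hφ.fderiv_right (by norm_num)
  obtain ⟨L, hL⟩ := h1.lipschitzWith_of_hasCompactSupport (hs.fderiv ℝ) one_ne_zero
  have hD : ∀ p q, ‖fderiv ℝ φ p - fderiv ℝ φ q‖ ≤ L * ‖p - q‖ := fun p q => by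
    have := hL.dist_le_mul p q
    rwa [dist_eq_norm, dist_eq_norm] at this
  obtain ⟨g1, s1, a1, b1⟩ := exists_sel_quad (hφ.differentiable (by norm_num)) L.2 hD hK (half_pos hε)
  obtain ⟨g2, s2, a2, b2⟩ := exists_sel_quad (φ := fun _ : E => (0 : ℝ)) (differentiable_const _) L.2
    (fun p q => by simp only [fderiv_fun_const, Pi.zero_apply, sub_self, norm_zero]; exact mul_nonneg L.2 (norm_nonneg _)) hK
    (half_pos hε)
  refine ⟨fun x => g1 x - g2 x, s1.sub s2, fun x hx => ?_, fun x hx y hy => ?_⟩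
  · have h2 := abs_le.1 (a1 x hx)
    have h3 := abs_le.1 (a2 x hx)
    rw [abs_le]; constructor <;> linarith [h2.1, h2.2, h3.1, h3.2]
  · have h2 := abs_le.1 (b1 x hx y hy)
    have h3 := abs_le.1 (b2 x hx y hy)
    rw [abs_le]; constructor <;> linarith [h2.1, h2.2, h3.1, h3.2]

/-- **`C¹`-approximation by piecewise affine maps** -/
theorem exists_sel [FiniteDimensional ℝ E] {F : Type*} [NormedAddCommGroup F]
    [InnerProductSpace ℝ F] [FiniteDimensional ℝ F] {φ : E → F} (hφ : ContDiff ℝ 2 φ)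
    (hs : HasCompactSupport φ) {K : Set E} (hK : IsCompact K) {ε : ℝ} (hε : 0 < ε) :
    ∃ g : E → F, Sel g ∧ (∀ x ∈ K, ‖g x - φ x‖ ≤ ε) ∧
      ∀ x ∈ K, ∀ y ∈ K, ‖(g x - φ x) - (g y - φ y)‖ ≤ ε * ‖x - y‖ := by
  set b := stdOrthonormalBasis ℝ F with hb
  set n : ℝ := ((Module.finrank ℝ F : ℕ) : ℝ) with hn
  have hn0 : 0 ≤ n := Nat.cast_nonneg _
  have hε' : 0 < ε / (n + 1) := by positivity
  have h1 : ∀ i, ∃ g : E → ℝ, Sel g ∧ (∀ x ∈ K, |g x - inner ℝ (b i) (φ x)| ≤ ε / (n + 1)) ∧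
      ∀ x ∈ K, ∀ y ∈ K, |(g x - inner ℝ (b i) (φ x)) - (g y - inner ℝ (b i) (φ y))| ≤
        ε / (n + 1) * ‖x - y‖ := by
    intro i
    refine exists_sel_real (φ := fun x => inner ℝ (b i) (φ x)) (contDiff_const.inner ℝ hφ) ?_ hK hε'
    exact hs.comp_left (g := fun v => inner ℝ (b i) v) (inner_zero_right _)
  choose g hg ha hc using h1
  have hsum : ∀ (t : Fin (Module.finrank ℝ F) → ℝ) (C : ℝ), 0 ≤ C → (∀ i, |t i| ≤ ε / (n + 1) * C) →
      ‖∑ i, t i • b i‖ ≤ ε * C := by
    intro t C hC ht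
    refine (norm_sum_le _ _).trans ?_
    have h2 : ∑ i, ‖t i • b i‖ ≤ ∑ _i : Fin (Module.finrank ℝ F), ε / (n + 1) * C := by
      refine Finset.sum_le_sum fun i _ => ?_
      rw [norm_smul, b.orthonormal.1 i, mul_one, Real.norm_eq_abs]
      exact ht i
    refine h2.trans ?_
    rw [Finset.sum_const, Finset.card_univ, Fintype.card_fin, nsmul_eq_mul, ← hn, ← mul_assoc]
    gcongr
    rw [← mul_div_assoc, div_le_iff₀ (by positivity)]
    nlinarith
  have hrep : ∀ x, (∑ i, g i x • b i) - φ x = ∑ i, (g i x - inner ℝ (b i) (φ x)) • b i := by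
    intro x
    conv_lhs => rw [← b.sum_repr' (φ x)]
    rw [← Finset.sum_sub_distrib]
    exact Finset.sum_congr rfl fun i _ => (sub_smul _ _ _).symm
  refine ⟨fun x => ∑ i, g i x • b i, Sel.sum _ fun i _ => ?_, fun x hx => ?_, fun x hx y hy => ?_⟩
  · exact (hg i).clm (ContinuousLinearMap.toSpanSingleton ℝ (b i))
  · rw [hrep]
    have := hsum _ 1 zero_le_one fun i => by rw [mul_one]; exact ha i x hx
    rwa [mul_one] at this
  · rw [hrep, hrep, ← Finset.sum_sub_distrib]
    have := hsum _ ‖x - y‖ (norm_nonneg _) fun i => hc i x hx y hy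
    refine le_of_eq_of_le ?_ this
    congr 1
    exact Finset.sum_congr rfl fun i _ => (sub_smul _ _ _).symm

end app

end Crest.Agent.X212.Smo49
end

-- ▼ part X212/Smo49/Hom
section

/-!
Row 212, layer T, package SMO (helper49), part 2: homeomorphisms between open sets (small
perturbations, gluing a modification on an open subset).
-/

set_option autoImplicit false
set_option linter.style.longLine false
set_option linter.unusedSectionVars false

open Set Metric Filter Topology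
open scoped NNReal ContDiff

namespace Crest.Agent.X212.Smo49

open Crest.Agent.R096.P5Spec_205 (HomeoOn)

variable {E : Type*} [NormedAddCommGroup E] [InnerProductSpace ℝ E]

theorem exists_beta {La : Set E} (hLa : IsOpen La) :
    ∃ β : E → ℝ, Continuous β ∧ (∀ z ∈ La, 0 < β z) ∧ (∀ z, β z ≤ 1) ∧
      ∀ z, ∀ y ∉ La, β z ≤ ‖z - y‖ / 2 := by
  rcases (Laᶜ).eq_empty_or_nonempty with he | hne
  · refine ⟨fun _ => 1, continuous_const, fun _ _ => one_pos, fun _ => le_rfl, fun z y hy => ?_⟩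
    have : y ∈ Laᶜ := hy
    rw [he] at this; exact this.elim
  · refine ⟨fun z => min 1 (infDist z Laᶜ / 2),
      continuous_const.min ((continuous_infDist_pt _).div_const 2), fun z hz => ?_,
      fun z => min_le_left _ _, fun z y hy => (min_le_right _ _).trans ?_⟩
    · refine lt_min one_pos (half_pos ?_)
      exact (hLa.isClosed_compl.notMem_iff_infDist_pos hne).1 (fun h => h hz)
    · have := infDist_le_dist_of_mem (x := z) (show y ∈ Laᶜ from hy)
      rw [dist_eq_norm] at this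
      linarith

theorem inv_spec {h : E → E} {Om La : Set E} (hh : HomeoOn h Om La) :
    ∃ k : E → E, ContinuousOn k La ∧ (∀ x ∈ Om, k (h x) = x) ∧ ∀ y ∈ La, k y ∈ Om ∧ h (k y) = y := by
  obtain ⟨k, hk, hkl⟩ := hh.inv
  refine ⟨k, hk, hkl, fun y hy => ?_⟩
  obtain ⟨x, hx, rfl⟩ := hh.bij.surjOn hy
  rw [hkl x hx]; exact ⟨hx, rfl⟩

theorem isOpen_image {h : E → E} {Om La P : Set E} (hLa : IsOpen La) (hh : HomeoOn h Om La)
    (hP : IsOpen P) (hPO : P ⊆ Om) : IsOpen (h '' P) := by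
  obtain ⟨k, hk, hkl, hkr⟩ := inv_spec hh
  have : h '' P = La ∩ k ⁻¹' P := by
    ext y
    constructor
    · rintro ⟨x, hx, rfl⟩
      exact ⟨hh.bij.mapsTo (hPO hx), by rw [mem_preimage, hkl x (hPO hx)]; exact hx⟩
    · rintro ⟨hy, hy2⟩
      exact ⟨k y, hy2, (hkr y hy).2⟩
  rw [this]
  exact hk.isOpen_inter_preimage hLa hP

theorem restrict {h : E → E} {Om La P : Set E} (hh : HomeoOn h Om La) (hPO : P ⊆ Om) :
    HomeoOn h P (h '' P) := by
  obtain ⟨k, hk, hkl⟩ := hh.inv
  refine ⟨(hh.bij.injOn.mono hPO).bijOn_image, hh.cont.mono hPO, k, hk.mono ?_,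
    fun x hx => hkl x (hPO hx)⟩
  rintro _ ⟨x, hx, rfl⟩
  exact hh.bij.mapsTo (hPO hx)

theorem homeo_congr {h g : E → E} {Om La : Set E} (hh : HomeoOn h Om La) (e : ∀ x ∈ Om, g x = h x) :
    HomeoOn g Om La := by
  obtain ⟨k, hk, hkl⟩ := hh.inv
  exact ⟨hh.bij.congr fun x hx => (e x hx).symm, hh.cont.congr e, k, hk,
    fun x hx => by rw [e x hx, hkl x hx]⟩

theorem homeo_neg {h : E → E} {Om La : Set E} (hh : HomeoOn h Om La) :
    HomeoOn (fun x => -h x) Om (-La) := by
  obtain ⟨k, hk, hkl⟩ := hh.inv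
  refine ⟨⟨fun x hx => by simpa using hh.bij.mapsTo hx, fun x hx y hy e => hh.bij.injOn hx hy
    (neg_injective e), fun y hy => ?_⟩, hh.cont.neg, fun y => k (-y), ?_, fun x hx => by
      simp [hkl x hx]⟩
  · obtain ⟨x, hx, e⟩ := hh.bij.surjOn (show -y ∈ La from hy)
    exact ⟨x, hx, by simp [e]⟩
  · exact hk.comp continuous_neg.continuousOn fun y hy => hy

theorem homeo_neg' {h : E → E} {Om La : Set E} (hh : HomeoOn h Om (-La)) :
    HomeoOn (fun x => -h x) Om La := by
  have := homeo_neg hh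
  rwa [neg_neg] at this

/-- an injective, locally open, continuous map close to a homeomorphism is one -/
theorem homeo_of_close [FiniteDimensional ℝ E] {h f : E → E} {Om La : Set E} (hOm : IsOpen Om)
    (hLa : IsOpen La) (hh : HomeoOn h Om La) (hc : ContinuousOn f Om) (hi : InjOn f Om)
    (ho : ∀ x ∈ Om, 𝓝 (f x) ≤ map f (𝓝 x)) (h1 : ∀ x ∈ Om, ‖f x - h x‖ ≤ 1)
    (h2 : ∀ x ∈ Om, ∀ y ∉ La, ‖f x - h x‖ ≤ ‖h x - y‖ / 2) : HomeoOn f Om La := by
  have hprop : ProperSpace E := FiniteDimensional.proper_real E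
  obtain ⟨k, hk, hkl, hkr⟩ := inv_spec hh
  have hseg : ∀ x ∈ Om, segment ℝ (h x) (f x) ⊆ La := by
    intro x hx w hw
    by_contra hwL
    have h3 := h2 x hx w hwL
    have h4 : ‖h x - w‖ ≤ ‖f x - h x‖ := by
      have := dist_add_dist_of_mem_segment hw
      rw [dist_eq_norm, dist_eq_norm (h x) (f x), norm_sub_rev (h x) (f x)] at this
      linarith [dist_nonneg (x := w) (y := f x)]
    have h5 : ‖h x - w‖ = 0 := le_antisymm (by linarith [norm_nonneg (h x - w)]) (norm_nonneg _)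
    rw [norm_eq_zero, sub_eq_zero] at h5
    exact hwL (h5 ▸ hh.bij.mapsTo hx)
  have hmaps : MapsTo f Om La := fun x hx => hseg x hx (right_mem_segment _ _ _)
  have hopen : IsOpen (f '' Om) := by
    rw [isOpen_iff_mem_nhds]
    rintro _ ⟨x, hx, rfl⟩
    exact ho x hx (image_mem_map (hOm.mem_nhds hx))
  have hcl : ∀ z ∈ La, z ∈ closure (f '' Om) → z ∈ f '' Om := by
    intro z hz hzc
    obtain ⟨d, hd, hdL⟩ := Metric.isOpen_iff.1 hLa z hz
    set C : Set E := closedBall z 2 ∩ ⋂ y ∈ Laᶜ, {w | d / 3 ≤ ‖w - y‖} with hC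
    have hCc : IsCompact C := (isCompact_closedBall z 2).inter_right
      (isClosed_biInter fun y _ => isClosed_le continuous_const (by fun_prop))
    have hCL : C ⊆ La := by
      intro w hw
      by_contra hwL
      have := mem_iInter₂.1 hw.2 w hwL
      simp only [sub_self, norm_zero, mem_ofPred_eq] at this
      linarith
    have hKc : IsCompact (f '' (k '' C)) :=
      (hCc.image_of_continuousOn (hk.mono hCL)).image_of_continuousOn (hc.mono (by
        rintro _ ⟨w, hw, rfl⟩; exact (hkr w (hCL hw)).1))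
    have hsub : ball z (min (d / 2) 1) ∩ f '' Om ⊆ f '' (k '' C) := by
      rintro _ ⟨hb, x, hx, rfl⟩
      rw [mem_ball, dist_eq_norm, lt_min_iff] at hb
      refine ⟨x, ⟨h x, ⟨?_, mem_iInter₂.2 fun y hy => ?_⟩, hkl x hx⟩, rfl⟩
      · rw [mem_closedBall, dist_eq_norm]
        have e : h x - z = (f x - z) - (f x - h x) := by abel
        rw [e]
        linarith [norm_sub_le (f x - z) (f x - h x), h1 x hx]
      · have h3 := h2 x hx y hy
        have h4 : d ≤ ‖z - y‖ := by
          by_contra hlt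
          exact hy (hdL (by rw [mem_ball, dist_eq_norm, norm_sub_rev]; exact not_le.1 hlt))
        have e : z - y = (h x - y) + (f x - h x) - (f x - z) := by abel
        have h5 : ‖z - y‖ ≤ ‖h x - y‖ + ‖f x - h x‖ + ‖f x - z‖ := by
          rw [e]
          exact (norm_sub_le _ _).trans (by gcongr; exact norm_add_le _ _)
        show d / 3 ≤ ‖h x - y‖
        linarith
    have h6 : z ∈ closure (ball z (min (d / 2) 1) ∩ f '' Om) :=
      isOpen_ball.inter_closure ⟨mem_ball_self (lt_min (half_pos hd) one_pos), hzc⟩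
    obtain ⟨_, ⟨w, hw, rfl⟩, e⟩ := hKc.isClosed.closure_subset_iff.2 hsub h6
    exact ⟨k w, (hkr w (hCL hw)).1, e⟩
  have hsurj : SurjOn f Om La := by
    intro z hz
    obtain ⟨hx, hxz⟩ := hkr z hz
    have h3 : segment ℝ z (f (k z)) ⊆ connectedComponentIn La z := by
      refine (convex_segment _ _).isPreconnected.subset_connectedComponentIn
        (left_mem_segment _ _ _) ?_
      have := hseg _ hx
      rwa [hxz] at this
    refine isPreconnected_connectedComponentIn.subset_of_closure_inter_subset hopen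
      ⟨f (k z), h3 (right_mem_segment _ _ _), mem_image_of_mem f hx⟩ ?_
      (mem_connectedComponentIn hz)
    rintro y ⟨hy1, hy2⟩
    exact hcl y (connectedComponentIn_subset _ _ hy2) hy1
  have hne : Nonempty E := ⟨0⟩
  refine ⟨⟨hmaps, hi, hsurj⟩, hc, Function.invFunOn f Om, fun z hz => ?_,
    fun x hx => hi.leftInvOn_invFunOn hx⟩
  obtain ⟨x, hx, rfl⟩ := hsurj hz
  refine ContinuousAt.continuousWithinAt ?_
  rw [ContinuousAt, hi.leftInvOn_invFunOn hx]
  intro N hN
  have h3 : f '' (N ∩ Om) ∈ 𝓝 (f x) := ho x hx (image_mem_map (inter_mem hN (hOm.mem_nhds hx)))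
  refine mem_map.2 (mem_of_superset h3 ?_)
  rintro _ ⟨y, hy, rfl⟩
  rw [mem_preimage, hi.leftInvOn_invFunOn hy.2]
  exact hy.1

open Classical in
/-- gluing a modification on an open subset which is small near the frontier -/
theorem homeo_glue {h g : E → E} {Om La P : Set E} (hLa : IsOpen La) (hh : HomeoOn h Om La)
    (hP : IsOpen P) (hPO : P ⊆ Om) (hg : HomeoOn g P (h '' P))
    (h2 : ∀ x ∈ P, ∀ y ∉ h '' P, ‖g x - h x‖ ≤ ‖h x - y‖ / 2) :
    HomeoOn (P.piecewise g h) Om La := by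
  obtain ⟨k, hk, hkl, hkr⟩ := inv_spec hh
  obtain ⟨k', hk', hkl', hkr'⟩ := inv_spec hg
  have hPo : IsOpen (h '' P) := isOpen_image hLa hh hP hPO
  have hPL : h '' P ⊆ La := by rintro _ ⟨x, hx, rfl⟩; exact hh.bij.mapsTo (hPO hx)
  have hout : ∀ x ∈ Om, x ∉ P → h x ∉ h '' P := by
    rintro x hx hxP ⟨p, hp, e⟩
    exact hxP (hh.bij.injOn (hPO hp) hx e ▸ hp)
  have hleft : ∀ x ∈ Om, (h '' P).piecewise k' k (P.piecewise g h x) = x := by
    intro x hx
    by_cases hxP : x ∈ P
    · rw [piecewise_eq_of_mem _ _ _ hxP, piecewise_eq_of_mem _ _ _ (hg.bij.mapsTo hxP), hkl' x hxP]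
    · rw [piecewise_eq_of_notMem _ _ _ hxP, piecewise_eq_of_notMem _ _ _ (hout x hx hxP), hkl x hx]
  refine ⟨⟨fun x hx => ?_, fun x hx y hy e => by rw [← hleft x hx, e, hleft y hy], fun z hz => ?_⟩,
    fun x hx => ?_, (h '' P).piecewise k' k, fun z hz => ?_, hleft⟩
  · by_cases hxP : x ∈ P
    · rw [piecewise_eq_of_mem _ _ _ hxP]; exact hPL (hg.bij.mapsTo hxP)
    · rw [piecewise_eq_of_notMem _ _ _ hxP]; exact hh.bij.mapsTo hx
  · by_cases hzP : z ∈ h '' P
    · obtain ⟨h3, h4⟩ := hkr' z hzP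
      exact ⟨k' z, hPO h3, by rw [piecewise_eq_of_mem _ _ _ h3, h4]⟩
    · obtain ⟨h3, h4⟩ := hkr z hz
      refine ⟨k z, h3, ?_⟩
      rw [piecewise_eq_of_notMem _ _ _ fun hp => hzP ⟨k z, hp, h4⟩, h4]
  · by_cases hxP : x ∈ P
    · refine ContinuousAt.continuousWithinAt ?_
      refine (hg.cont.continuousAt (hP.mem_nhds hxP)).congr ?_
      filter_upwards [hP.mem_nhds hxP] with y hy using (piecewise_eq_of_mem _ _ _ hy).symm
    · rw [ContinuousWithinAt, piecewise_eq_of_notMem _ _ _ hxP, tendsto_iff_norm_sub_tendsto_zero]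
      have h3 : Tendsto (fun y => 2 * ‖h y - h x‖) (𝓝[Om] x) (𝓝 0) := by
        have := (tendsto_iff_norm_sub_tendsto_zero.1 (hh.cont x hx)).const_mul 2
        rwa [mul_zero] at this
      refine squeeze_zero (fun _ => norm_nonneg _) (fun y => ?_) h3
      by_cases hyP : y ∈ P
      · rw [piecewise_eq_of_mem _ _ _ hyP]
        have h4 := h2 y hyP (h x) (hout x hx hxP)
        have e : g y - h x = (g y - h y) + (h y - h x) := by abel
        rw [e]
        linarith [norm_add_le (g y - h y) (h y - h x), norm_nonneg (h y - h x)]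
      · rw [piecewise_eq_of_notMem _ _ _ hyP]
        linarith [norm_nonneg (h y - h x)]
  · by_cases hzP : z ∈ h '' P
    · refine ContinuousAt.continuousWithinAt ?_
      refine (hk'.continuousAt (hPo.mem_nhds hzP)).congr ?_
      filter_upwards [hPo.mem_nhds hzP] with y hy using (piecewise_eq_of_mem _ _ _ hy).symm
    · set θ : E → E := (h '' P).piecewise (fun w => h (k' w)) id with hθ
      have hθL : MapsTo θ La La := by
        intro w hw
        by_cases hwP : w ∈ h '' P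
        · rw [hθ, piecewise_eq_of_mem _ _ _ hwP]; exact hh.bij.mapsTo (hPO (hkr' w hwP).1)
        · rw [hθ, piecewise_eq_of_notMem _ _ _ hwP]; exact hw
      have hθz : θ z = z := by rw [hθ, piecewise_eq_of_notMem _ _ _ hzP]; rfl
      have hθc : ContinuousWithinAt θ La z := by
        rw [ContinuousWithinAt, hθz, tendsto_iff_norm_sub_tendsto_zero]
        have h3 : Tendsto (fun w => 2 * ‖w - z‖) (𝓝[La] z) (𝓝 0) := by
          have h4 : Tendsto (fun w : E => w) (𝓝[La] z) (𝓝 z) := tendsto_id'.2 nhdsWithin_le_nhds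
          have := (tendsto_iff_norm_sub_tendsto_zero.1 h4).const_mul 2
          rwa [mul_zero] at this
        refine squeeze_zero (fun _ => norm_nonneg _) (fun w => ?_) h3
        by_cases hwP : w ∈ h '' P
        · rw [hθ, piecewise_eq_of_mem _ _ _ hwP]
          obtain ⟨h4, h5⟩ := hkr' w hwP
          have h6 := h2 _ h4 z hzP
          rw [h5] at h6
          have e : h (k' w) - z = (w - z) - (w - h (k' w)) := by abel
          have h7 : ‖h (k' w) - z‖ ≤ ‖w - z‖ + ‖w - h (k' w)‖ := by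
            conv_lhs => rw [e]
            exact norm_sub_le _ _
          linarith
        · rw [hθ, piecewise_eq_of_notMem _ _ _ hwP]
          simp only [id]
          linarith [norm_nonneg (w - z)]
      have h8 : ContinuousWithinAt (k ∘ θ) La z :=
        ContinuousWithinAt.comp (by rw [hθz]; exact hk z hz) hθc hθL
      refine h8.congr (fun w _ => ?_) ?_
      · by_cases hwP : w ∈ h '' P
        · rw [piecewise_eq_of_mem _ _ _ hwP, Function.comp_apply, hθ,
            piecewise_eq_of_mem _ _ _ hwP, hkl _ (hPO (hkr' w hwP).1)]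
        · rw [piecewise_eq_of_notMem _ _ _ hwP, Function.comp_apply, hθ,
            piecewise_eq_of_notMem _ _ _ hwP]; rfl
      · rw [piecewise_eq_of_notMem _ _ _ hzP, Function.comp_apply, hθz]

end Crest.Agent.X212.Smo49
end

-- ▼ part X212/Smo49/Pert

/-!
Row 212, layer T, package SMO (helper49), part 3: a homeomorphism which is a local diffeomorphism on
`U` is made piecewise affine near a compact set, staying in the convex class on `U`.
-/

set_option autoImplicit false
set_option linter.style.longLine false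
set_option linter.unusedSectionVars false

open Set Metric Filter Topology MeasureTheory
open scoped NNReal ContDiff Manifold

namespace Crest.Agent.X212.Smo49

open Crest.Agent.R096.P5Spec_205 (HomeoOn MollAt)
open Crest.Agent.R096.Str_696 (LocPL)

variable {E : Type*} [NormedAddCommGroup E] [InnerProductSpace ℝ E] [MeasureSpace E]
  [BorelSpace E] [FiniteDimensional ℝ E] [(volume : Measure E).IsAddHaarMeasure]

/-- smooth with invertible derivative -/
def SmOn {E : Type*} [NormedAddCommGroup E] [NormedSpace ℝ E] (h : E → E) (U : Set E) : Prop :=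
  ContDiffOn ℝ ∞ h U ∧ ∀ x ∈ U, (fderiv ℝ h x).det ≠ 0

/-- the convex class up to sign -/
def SMoll (h : E → E) (x : E) : Prop := MollAt h x ∨ MollAt (fun y => -h y) x

theorem moll_ev {h : E → E} {x : E} (hx : MollAt h x) : ∀ᶠ y in 𝓝 x, MollAt h y :=
  R096.Mo_119.MollAt.eventually (μ := volume) hx

theorem moll_congr {h h' : E → E} {x : E} (hx : MollAt h x) (he : h' =ᶠ[𝓝 x] h) : MollAt h' x :=
  R096.Mo_119.MollAt.congr (μ := volume) hx he

theorem SMoll.congr {h h' : E → E} {x : E} (hx : SMoll h x) (he : h' =ᶠ[𝓝 x] h) : SMoll h' x := by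
  rcases hx with hx | hx
  · exact Or.inl (moll_congr hx he)
  · exact Or.inr (moll_congr hx (he.mono fun y hy => by simp only [hy]))

theorem det_neg (hfin : Module.finrank ℝ E = 3) (A : E →L[ℝ] E) : (-A).det = -A.det := by
  have e : ((-A : E →L[ℝ] E) : E →ₗ[ℝ] E) = (-1 : ℝ) • (A : E →ₗ[ℝ] E) := by ext v; simp
  unfold ContinuousLinearMap.det
  rw [e, LinearMap.det_smul, hfin]
  ring

theorem moll_not_both (hfin : Module.finrank ℝ E = 3) {h : E → E} {x : E} (h1 : MollAt h x)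
    (h2 : MollAt (fun y => -h y) x) : False := by
  obtain ⟨r, hr, K, -, -, hdet, -, hae⟩ := h1
  obtain ⟨r', hr', K', -, -, hdet', -, hae'⟩ := h2
  have h3 : ∀ᵐ y ∂(volume : Measure E), y ∉ ball x (min r r') := by
    filter_upwards [hae, hae'] with y hy hy' hb
    have h4 := hdet _ (hy (ball_subset_ball (min_le_left _ _) hb))
    have h5 := hdet' _ (hy' (ball_subset_ball (min_le_right _ _) hb))
    rw [fderiv_fun_neg, det_neg hfin] at h5
    linarith
  have h4 := measure_eq_zero_iff_ae_notMem.2 h3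
  exact (measure_ball_pos volume x (lt_min hr hr')).ne' h4

theorem moll_of_approx {f : E → E} {A : E →L[ℝ] E} {x : E} {r : ℝ} (hr : 0 < r) {c : ℝ≥0}
    (hf : ApproximatesLinearOn f A (ball x r) c) (hdet : ∀ B ∈ closedBall A (c : ℝ), 0 < B.det) :
    MollAt f x := by
  have : ProperSpace (E →L[ℝ] E) := FiniteDimensional.proper_real _
  have hL : LipschitzOnWith c (f - ⇑A) (ball x r) :=
    ApproximatesLinearOn.approximatesLinearOn_iff_lipschitzOnWith.1 hf
  have hL2 : LipschitzOnWith (‖A‖₊ + c) f (ball x r) := lipschitzOnWith_iff_restrict.2 hf.lipschitz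
  refine ⟨r, hr, closedBall A c, convex_closedBall _ _, isCompact_closedBall _ _, hdet, ⟨_, hL2⟩, ?_⟩
  filter_upwards [hL2.ae_differentiableWithinAt_of_mem (μ := volume)] with y hy hyx
  have hd := (hy hyx).differentiableAt (isOpen_ball.mem_nhds hyx)
  have h1 := norm_fderiv_le_of_lipschitzOn ℝ (isOpen_ball.mem_nhds hyx) hL
  rw [fderiv_sub hd A.differentiableAt, A.fderiv] at h1
  rwa [mem_closedBall, dist_eq_norm]

theorem exists_bump {C U : Set E} (hC : IsCompact C) (hU : IsOpen U) (hCU : C ⊆ U) :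
    ∃ (χ : E → ℝ) (K : Set E), ContDiff ℝ ∞ χ ∧ IsCompact K ∧ K ⊆ U ∧ (∀ x ∉ K, χ x = 0) ∧
      (∀ᶠ x in 𝓝ˢ C, χ x = 1) ∧ ∀ x, χ x ∈ Icc (0 : ℝ) 1 := by
  obtain ⟨K, hK, hCK, hKU⟩ := exists_compact_between hC hU hCU
  obtain ⟨f, f1, f0, f01⟩ := exists_contMDiffMap_one_nhds_of_subset_interior (n := ⊤) 𝓘(ℝ, E)
    hC.isClosed hCK
  exact ⟨f, K, contMDiff_iff_contDiff.1 f.contMDiff, hK, hKU, f0, f1, f01⟩

/-- uniform linear approximation -/
def Qp (h : E → E) (U : Set E) (a : E) (t : ℝ≥0) : Prop :=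
  ball a t ⊆ U ∧ ∃ (A : E ≃L[ℝ] E) (c : ℝ≥0), ApproximatesLinearOn h (A : E →L[ℝ] E) (ball a t) c ∧
    c + t < ‖(A.symm : E →L[ℝ] E)‖₊⁻¹ ∧
    ((∀ B ∈ closedBall (A : E →L[ℝ] E) ((c + t : ℝ≥0) : ℝ), 0 < B.det) ∨
      ∀ B ∈ closedBall (A : E →L[ℝ] E) ((c + t : ℝ≥0) : ℝ), B.det < 0)

theorem Qp.mono {h : E → E} {U : Set E} {a : E} {t s : ℝ≥0} (H : Qp h U a t) (hs : s ≤ t) :
    Qp h U a s := by
  obtain ⟨h1, A, c, h2, h3, h4⟩ := H
  have hb : ball a s ⊆ ball a t := ball_subset_ball (by exact_mod_cast hs)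
  have hb' : closedBall (A : E →L[ℝ] E) ((c + s : ℝ≥0) : ℝ) ⊆ closedBall (A : E →L[ℝ] E) ((c + t : ℝ≥0) : ℝ) :=
    closedBall_subset_closedBall (by exact_mod_cast add_le_add_right hs c)
  exact ⟨hb.trans h1, A, c, h2.mono_set hb, lt_of_le_of_lt (add_le_add_right hs c) h3,
    h4.imp (fun h B hB => h B (hb' hB)) fun h B hB => h B (hb' hB)⟩

theorem exists_Qp [Nontrivial E] {h : E → E} {U K : Set E} (hU : IsOpen U) (hs : SmOn h U)
    (hK : IsCompact K) (hKU : K ⊆ U) : ∃ t : ℝ≥0, 0 < t ∧ ∀ a ∈ K, Qp h U a t := by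
  have : CompleteSpace E := FiniteDimensional.complete ℝ E
  refine hK.induction_on (p := fun s => ∃ t : ℝ≥0, 0 < t ∧ ∀ a ∈ s, Qp h U a t)
    ⟨1, one_pos, fun a ha => ha.elim⟩ (fun s s' hss ⟨t, ht, H⟩ => ⟨t, ht, fun a ha => H a (hss ha)⟩)
    (fun s s' ⟨t, ht, H⟩ ⟨t', ht', H'⟩ => ⟨min t t', lt_min ht ht', fun a ha => ha.elim
      (fun h => (H a h).mono (min_le_left _ _)) fun h => (H' a h).mono (min_le_right _ _)⟩) ?_
  intro x hx
  have hxU := hKU hx
  have hcd : ContDiffAt ℝ ∞ h x := hs.1.contDiffAt (hU.mem_nhds hxU)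
  set A : E ≃L[ℝ] E := (fderiv ℝ h x).toContinuousLinearEquivOfDetNeZero (hs.2 x hxU) with hA
  have hAe : (A : E →L[ℝ] E) = fderiv ℝ h x := by ext v; rfl
  have hst : HasStrictFDerivAt h (A : E →L[ℝ] E) x := by
    rw [hAe]; exact hcd.hasStrictFDerivAt (by simp)
  have hN : 0 < ‖(A.symm : E →L[ℝ] E)‖₊⁻¹ := inv_pos.2 A.nnnorm_symm_pos
  have hsg : ∃ d : ℝ≥0, 0 < d ∧ ((∀ B ∈ closedBall (A : E →L[ℝ] E) (d : ℝ), 0 < B.det) ∨
      ∀ B ∈ closedBall (A : E →L[ℝ] E) (d : ℝ), B.det < 0) := by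
    rcases lt_or_gt_of_ne (hs.2 x hxU) with hlt | hlt
    · have hO : IsOpen {B : E →L[ℝ] E | B.det < 0} :=
        isOpen_lt ContinuousLinearMap.continuous_det continuous_const
      obtain ⟨d, hd, hdO⟩ := nhds_basis_closedBall.mem_iff.1 (hO.mem_nhds
        (show (A : E →L[ℝ] E) ∈ {B : E →L[ℝ] E | B.det < 0} by rw [hAe]; exact hlt))
      exact ⟨⟨d, hd.le⟩, hd, Or.inr fun B hB => hdO hB⟩
    · have hO : IsOpen {B : E →L[ℝ] E | 0 < B.det} :=
        isOpen_lt continuous_const ContinuousLinearMap.continuous_det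
      obtain ⟨d, hd, hdO⟩ := nhds_basis_closedBall.mem_iff.1 (hO.mem_nhds
        (show (A : E →L[ℝ] E) ∈ {B : E →L[ℝ] E | 0 < B.det} by rw [hAe]; exact hlt))
      exact ⟨⟨d, hd.le⟩, hd, Or.inl fun B hB => hdO hB⟩
  obtain ⟨d, hd, hdA⟩ := hsg
  set c : ℝ≥0 := min d ‖(A.symm : E →L[ℝ] E)‖₊⁻¹ / 4 with hc
  have hm0 : 0 < min d ‖(A.symm : E →L[ℝ] E)‖₊⁻¹ := lt_min hd hN
  have hc0 : 0 < c := by positivity
  obtain ⟨s, hsx, hap⟩ := hst.approximates_deriv_on_nhds (Or.inr hc0)
  obtain ⟨r, hr, hrs⟩ := Metric.mem_nhds_iff.1 (inter_mem hsx (hU.mem_nhds hxU))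
  set t : ℝ≥0 := min c ⟨r / 2, by positivity⟩ with ht
  have htc : t ≤ c := min_le_left _ _
  have htr : (t : ℝ) ≤ r / 2 := by
    have : t ≤ (⟨r / 2, by positivity⟩ : ℝ≥0) := min_le_right _ _
    exact_mod_cast this
  have hct : c + t < min d ‖(A.symm : E →L[ℝ] E)‖₊⁻¹ := by
    have h1 : c + t ≤ c + c := add_le_add_right htc c
    refine h1.trans_lt ?_
    rw [hc, ← NNReal.coe_lt_coe]
    have : (0 : ℝ) < ((min d ‖(A.symm : E →L[ℝ] E)‖₊⁻¹ : ℝ≥0) : ℝ) := hm0
    simp only [NNReal.coe_add, NNReal.coe_div, NNReal.coe_ofNat]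
    linarith
  refine ⟨ball x (r / 2), mem_nhdsWithin_of_mem_nhds (ball_mem_nhds x (half_pos hr)), t,
    lt_min hc0 (by exact half_pos hr), fun a ha => ?_⟩
  have hb : ball a t ⊆ ball x r := by
    refine ball_subset_ball' ?_
    rw [mem_ball] at ha
    linarith
  have hb' : closedBall (A : E →L[ℝ] E) ((c + t : ℝ≥0) : ℝ) ⊆ closedBall (A : E →L[ℝ] E) (d : ℝ) :=
    closedBall_subset_closedBall (by exact_mod_cast (hct.le.trans (min_le_left _ _)))
  exact ⟨fun y hy => (hrs (hb hy)).2, A, c, hap.mono_set fun y hy => (hrs (hb hy)).1,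
    hct.trans_le (min_le_right _ _),
    hdA.imp (fun h B hB => h B (hb' hB)) fun h B hB => h B (hb' hB)⟩

theorem SmOn.smoll (hfin : Module.finrank ℝ E = 3) {h : E → E} {U : Set E} (hU : IsOpen U)
    (hs : SmOn h U) {x : E} (hx : x ∈ U) : SMoll h x := by
  have hcd : ContDiffAt ℝ 1 h x := (hs.1.contDiffAt (hU.mem_nhds hx)).of_le (by simp)
  rcases lt_or_gt_of_ne (hs.2 x hx) with hlt | hlt
  · refine Or.inr (R096.Mo_119.mollAt_of_contDiffAt (μ := volume) hcd.neg ?_)
    rw [fderiv_fun_neg, det_neg hfin]; linarith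
  · exact Or.inl (R096.Mo_119.mollAt_of_contDiffAt (μ := volume) hcd hlt)

/-- small Lipschitz perturbations with compact support -/
theorem pert (hfin : Module.finrank ℝ E = 3) {h : E → E} {Om La U K : Set E} (hOm : IsOpen Om)
    (hLa : IsOpen La) (hh : HomeoOn h Om La) (hU : IsOpen U) (hUO : U ⊆ Om) (hs : SmOn h U)
    (hK : IsCompact K) (hKU : K ⊆ U) :
    ∃ ε > 0, ∀ d : E → E, (∀ x ∉ K, d x = 0) → (∀ x, ‖d x‖ ≤ ε) →
      (∀ x y, ‖d x - d y‖ ≤ ε * ‖x - y‖) →
      HomeoOn (fun x => h x + d x) Om La ∧ ∀ x ∈ U, SMoll (fun x => h x + d x) x := by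
  have : Nontrivial E := Module.nontrivial_of_finrank_pos (R := ℝ) (by omega)
  have : CompleteSpace E := FiniteDimensional.complete ℝ E
  obtain ⟨t, ht, hQ⟩ := exists_Qp hU hs hK hKU
  have ht' : (0 : ℝ) < t := ht
  obtain ⟨k, hk, hkl, hkr⟩ := inv_spec hh
  have hKO : K ⊆ Om := hKU.trans hUO
  have hKi : IsCompact (h '' K) := hK.image_of_continuousOn (hh.cont.mono hKO)
  have hKL : h '' K ⊆ La := by rintro _ ⟨x, hx, rfl⟩; exact hh.bij.mapsTo (hKO hx)
  obtain ⟨s, hs0, hss⟩ := Metric.mem_uniformity_dist.1 (hKi.uniformContinuousAt_of_continuousAt k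
    (fun a ha => hk.continuousAt (hLa.mem_nhds (hKL ha))) (Metric.dist_mem_uniformity ht'))
  obtain ⟨β, βc, β0, β1, βL⟩ := exists_beta hLa
  obtain ⟨b, hb0, hb⟩ : ∃ b > 0, ∀ z ∈ h '' K, b ≤ β z := by
    rcases (h '' K).eq_empty_or_nonempty with he | hne
    · exact ⟨1, one_pos, by rw [he]; exact fun z hz => hz.elim⟩
    · obtain ⟨z, hz, hzm⟩ := hKi.exists_isMinOn hne βc.continuousOn
      exact ⟨β z, β0 z (hKL hz), fun w hw => hzm hw⟩
  refine ⟨min (min t (s / 4)) (min b 1), by positivity, fun d hd0 hd1 hd2 => ?_⟩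
  have e1 : min (min (t : ℝ) (s / 4)) (min b 1) ≤ t := (min_le_left _ _).trans (min_le_left _ _)
  have e2 : min (min (t : ℝ) (s / 4)) (min b 1) ≤ s / 4 := (min_le_left _ _).trans (min_le_right _ _)
  have e3 : min (min (t : ℝ) (s / 4)) (min b 1) ≤ b := (min_le_right _ _).trans (min_le_left _ _)
  have e4 : min (min (t : ℝ) (s / 4)) (min b 1) ≤ 1 := (min_le_right _ _).trans (min_le_right _ _)
  have hdt : ∀ x y, ‖d x - d y‖ ≤ t * ‖x - y‖ := fun x y =>
    (hd2 x y).trans (mul_le_mul_of_nonneg_right e1 (norm_nonneg _))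
  have hdc : Continuous d := by
    refine (LipschitzWith.of_dist_le_mul (K := t) fun x y => ?_).continuous
    rw [dist_eq_norm, dist_eq_norm]; exact hdt x y
  have happ : ∀ {a : E} {A : E →L[ℝ] E} {c : ℝ≥0}, ApproximatesLinearOn h A (ball a t) c →
      ApproximatesLinearOn (fun x => h x + d x) A (ball a t) (c + t) := by
    intro a A c H x hx y hy
    have e : h x + d x - (h y + d y) - A (x - y) = (h x - h y - A (x - y)) + (d x - d y) := by abel
    rw [e]
    refine (norm_add_le _ _).trans ?_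
    rw [NNReal.coe_add, add_mul]
    exact add_le_add (H x hx y hy) (hdt x y)
  have hoff : ∀ x ∉ K, (fun x => h x + d x) =ᶠ[𝓝 x] h := by
    intro x hx
    filter_upwards [hK.isClosed.isOpen_compl.mem_nhds hx] with y hy
    rw [hd0 y hy, add_zero]
  have hinj1 : ∀ a ∈ K, ∀ y ∈ Om, h a + d a = h y + d y → a = y := by
    intro a ha y hy e
    obtain ⟨-, A, c, h2, h3, -⟩ := hQ a ha
    refine (happ h2).injOn (Or.inr h3) (mem_ball_self ht') ?_ e
    have h4 : dist (h a) (h y) < s := by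
      rw [dist_eq_norm]
      have e' : h a - h y = d y - d a := by rw [sub_eq_sub_iff_add_eq_add, e, add_comm]
      rw [e']
      linarith [norm_sub_le (d y) (d a), hd1 y, hd1 a]
    have h5 := hss h4 (mem_image_of_mem h ha)
    simp only [mem_ofPred_eq, hkl a (hKO ha), hkl y hy] at h5
    rw [mem_ball, dist_comm]; exact h5
  refine ⟨homeo_of_close hOm hLa hh (hh.cont.add hdc.continuousOn) ?_ ?_ ?_ ?_, fun x hx => ?_⟩
  · intro x hx y hy e
    by_cases hxK : x ∈ K
    · exact hinj1 x hxK y hy e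
    · by_cases hyK : y ∈ K
      · exact (hinj1 y hyK x hx e.symm).symm
      · simp only [hd0 x hxK, hd0 y hyK, add_zero] at e
        exact hh.bij.injOn hx hy e
  · intro x hx
    by_cases hxK : x ∈ K
    · obtain ⟨-, A, c, h2, h3, -⟩ := hQ x hxK
      exact ((happ h2).map_nhds_eq A.toNonlinearRightInverse (ball_mem_nhds x ht') (Or.inr h3)).ge
    · rw [map_congr (hoff x hxK), hd0 x hxK, add_zero]
      intro N hN
      obtain ⟨N', hN', hNo, hxN⟩ := _root_.mem_nhds_iff.1 (inter_mem (mem_map.1 hN) (hOm.mem_nhds hx))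
      refine mem_of_superset ((isOpen_image hLa hh hNo fun y hy => (hN' hy).2).mem_nhds
        (mem_image_of_mem h hxN)) ?_
      rintro _ ⟨y, hy, rfl⟩
      exact (hN' hy).1
  · intro x _
    rw [add_sub_cancel_left]; exact (hd1 x).trans e4
  · intro x _ y hy
    rw [add_sub_cancel_left]
    by_cases hxK : x ∈ K
    · exact (hd1 x).trans (e3.trans ((hb _ (mem_image_of_mem h hxK)).trans (βL _ y hy)))
    · rw [hd0 x hxK, norm_zero]; positivity
  · by_cases hxK : x ∈ K
    · obtain ⟨-, A, c, h2, -, h4 | h4⟩ := hQ x hxK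
      · exact Or.inl (moll_of_approx ht' (happ h2) h4)
      · refine Or.inr (moll_of_approx (A := -(A : E →L[ℝ] E)) (c := c + t) ht' ?_ fun B hB => ?_)
        · intro y hy z hz
          have := happ h2 y hy z hz
          rw [← norm_neg] at this
          refine le_of_eq_of_le ?_ this
          congr 1
          simp only [neg_apply]
          abel
        · have h5 := h4 (-B) (by
            rw [mem_closedBall, dist_eq_norm] at hB ⊢
            rw [← norm_neg]
            refine le_of_eq_of_le ?_ hB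
            congr 1; abel)
          rw [det_neg hfin] at h5
          linarith
    · exact (hs.smoll hfin hU hx).congr (hoff x hxK)

/-- **smooth ⟹ piecewise affine near a compact set** -/
theorem plize (hfin : Module.finrank ℝ E = 3) {h : E → E} {Om La U C : Set E} (hOm : IsOpen Om)
    (hLa : IsOpen La) (hh : HomeoOn h Om La) (hU : IsOpen U) (hUO : U ⊆ Om) (hs : SmOn h U)
    (hC : IsCompact C) (hCU : C ⊆ U) :
    ∃ (h₁ : E → E) (K V : Set E), HomeoOn h₁ Om La ∧ IsCompact K ∧ K ⊆ U ∧ (∀ x ∉ K, h₁ x = h x) ∧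
      (∀ x ∈ U, SMoll h₁ x) ∧ IsOpen V ∧ C ⊆ V ∧ LocPL h₁ V := by
  obtain ⟨χ, K, χs, hK, hKU, χ0, χ1, χ01⟩ := exists_bump hC hU hCU
  obtain ⟨ψ, K', ψs, hK', hK'U, ψ0, ψ1, -⟩ := exists_bump hK hU hKU
  obtain ⟨ε, hε, H⟩ := pert hfin hOm hLa hh hU hUO hs hK hKU
  have χsupp : HasCompactSupport χ := HasCompactSupport.intro hK χ0
  obtain ⟨L, hL⟩ := χs.lipschitzWith_of_hasCompactSupport χsupp (by simp)
  set φ : E → E := fun x => ψ x • h x with hφ
  have φs : ContDiff ℝ 2 φ := by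
    rw [contDiff_iff_contDiffAt]
    intro x
    by_cases hx : x ∈ U
    · exact ((ψs.contDiffAt.smul (hs.1.contDiffAt (hU.mem_nhds hx))).of_le (by norm_cast))
    · refine (contDiffAt_const (c := (0 : E))).congr_of_eventuallyEq ?_
      filter_upwards [hK'.isClosed.isOpen_compl.mem_nhds fun h' => hx (hK'U h')] with y hy
      simp only [hφ, ψ0 y hy, zero_smul]
  have φsupp : HasCompactSupport φ :=
    HasCompactSupport.intro hK' fun x hx => by simp only [hφ, ψ0 x hx, zero_smul]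
  have hL0 : (0 : ℝ) ≤ L := L.2
  have hε' : 0 < ε / (1 + L) := by positivity
  obtain ⟨g, gs, g0, g1⟩ := exists_sel φs φsupp hK hε'
  have hεε : ε / (1 + L) * (1 + L) = ε := by field_simp
  have hχL : ∀ x y, |χ x - χ y| ≤ L * ‖x - y‖ := fun x y => by
    have := hL.dist_le_mul x y
    rwa [Real.dist_eq, dist_eq_norm] at this
  have hχ1 : ∀ x, |χ x| ≤ 1 := fun x => by rw [abs_of_nonneg (χ01 x).1]; exact (χ01 x).2
  have hone : ∀ x y, y ∉ K → ‖χ x • (g x - φ x) - χ y • (g y - φ y)‖ ≤ ε * ‖x - y‖ := by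
    intro x y hy
    by_cases hx : x ∈ K
    · have h1 := hχL x y
      rw [χ0 y hy, sub_zero] at h1
      rw [χ0 y hy, zero_smul, sub_zero, norm_smul, Real.norm_eq_abs]
      calc |χ x| * ‖g x - φ x‖ ≤ (L * ‖x - y‖) * (ε / (1 + L)) :=
            mul_le_mul h1 (g0 x hx) (norm_nonneg _) (by positivity)
        _ ≤ ((1 + L) * ‖x - y‖) * (ε / (1 + L)) := by gcongr; linarith
        _ = ε * ‖x - y‖ := by field_simp
    · rw [χ0 y hy, χ0 x hx, zero_smul, zero_smul, sub_zero, norm_zero]; positivity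
  obtain ⟨H1, H2⟩ := H (fun x => χ x • (g x - φ x)) (fun x hx => by rw [χ0 x hx, zero_smul])
    (fun x => by
      by_cases hx : x ∈ K
      · rw [norm_smul, Real.norm_eq_abs]
        calc |χ x| * ‖g x - φ x‖ ≤ 1 * (ε / (1 + L)) :=
              mul_le_mul (hχ1 x) (g0 x hx) (norm_nonneg _) zero_le_one
          _ ≤ (1 + L) * (ε / (1 + L)) := by gcongr; linarith
          _ = ε := by field_simp
      · rw [χ0 x hx, zero_smul, norm_zero]; exact hε.le)
    (fun x y => by
      by_cases hy : y ∈ K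
      · by_cases hx : x ∈ K
        · have e : χ x • (g x - φ x) - χ y • (g y - φ y) =
              χ x • ((g x - φ x) - (g y - φ y)) + (χ x - χ y) • (g y - φ y) := by
            rw [smul_sub (χ x) (g x - φ x), sub_smul]; abel
          rw [e]
          refine (norm_add_le _ _).trans ?_
          rw [norm_smul, norm_smul, Real.norm_eq_abs, Real.norm_eq_abs]
          have a1 : |χ x| * ‖(g x - φ x) - (g y - φ y)‖ ≤ 1 * (ε / (1 + L) * ‖x - y‖) :=
            mul_le_mul (hχ1 x) (g1 x hx y hy) (norm_nonneg _) zero_le_one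
          have a2 : |χ x - χ y| * ‖g y - φ y‖ ≤ (L * ‖x - y‖) * (ε / (1 + L)) :=
            mul_le_mul (hχL x y) (g0 y hy) (norm_nonneg _) (by positivity)
          have a3 : 1 * (ε / (1 + L) * ‖x - y‖) + (L * ‖x - y‖) * (ε / (1 + L)) = ε * ‖x - y‖ := by
            field_simp
          linarith
        · rw [norm_sub_rev, norm_sub_rev x y]; exact hone y x hx
      · exact hone x y hy)
  obtain ⟨V, hVo, hCV, hV⟩ := mem_nhdsSet_iff_exists.1 χ1
  refine ⟨fun x => h x + χ x • (g x - φ x), K, V, H1, hK, hKU,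
    fun x hx => by simp only [χ0 x hx, zero_smul, add_zero], H2, hVo, hCV, fun x hx => ?_⟩
  obtain ⟨r, hr, hrV⟩ := Metric.isOpen_iff.1 hVo x hx
  have he : ∀ y ∈ ball x r, h y + χ y • (g y - φ y) = g y := by
    intro y hy
    have h1 : χ y = 1 := hV (hrV hy)
    have h2 : y ∈ K := by
      by_contra hn
      rw [χ0 y hn] at h1
      exact zero_ne_one h1
    have h3 : ψ y = 1 := ψ1.self_of_nhdsSet y h2
    simp only [hφ, h1, h3, one_smul]
    abel
  obtain ⟨gc, S, hS⟩ := gs
  exact ⟨r, hr, S, gc.continuousOn.congr he, fun y hy => by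
    obtain ⟨a, ha, e⟩ := hS y
    exact ⟨a, ha, (he y hy).trans e⟩⟩

end Crest.Agent.X212.Smo49
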